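import Mathlib.Analysis.Analytic.Constructions
import Mathlib.Analysis.LocallyConvex.HahnBanach
import Mathlib.Analysis.Normed.Module.FiniteDimension
import Mathlib.Analysis.Complex.Basic
import Mathlib.Analysis.Calculus.FDeriv.Analytic

/-!
P275 (helper23): the abstract Banach layer of the block CN.
-/

set_option linter.all false

open scoped Topology
open Filter Set

noncomputable section

namespace Vale.Agent.P275KC

variable {X Y : Type} [NormedAddCommGroup X] [NormedSpace ℂ X] [NormedAddCommGroup Y]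
  [NormedSpace ℂ Y]

/-- coordinates on a finite dimensional subspace -/
theorem ex_coord (Θ : Submodule ℂ X) [FiniteDimensional ℂ Θ] :
    ∃ (k : ℕ) (e : (Fin k → ℂ) →L[ℂ] X), Function.Injective e ∧ ∀ x, x ∈ Θ ↔ ∃ v, e v = x := by
  let b := (Module.finBasis ℂ Θ).equivFunL
  refine ⟨_, Θ.subtypeL.comp b.symm.toContinuousLinearMap,
    Subtype.val_injective.comp b.symm.injective, fun x => ⟨fun h => ⟨b ⟨x, h⟩, by simp⟩, ?_⟩⟩
  rintro ⟨v, rfl⟩
  exact (b.symm v).2

/-- left inverses of injective maps from finite dimensional spaces -/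
theorem ex_left {V : Type} [NormedAddCommGroup V] [NormedSpace ℂ V] [FiniteDimensional ℂ V]
    (e : V →L[ℂ] X) (he : Function.Injective e) : ∃ L : X →L[ℂ] V, ∀ v, L (e v) = v := by
  let b := LinearEquiv.ofInjective e.toLinearMap he
  obtain ⟨P, hP⟩ := Submodule.ClosedComplemented.of_finiteDimensional (LinearMap.range e.toLinearMap)
  refine ⟨(LinearMap.toContinuousLinearMap b.symm.toLinearMap).comp P, fun v => ?_⟩
  have := hP (b v)
  exact (congrArg b.symm this).trans (b.symm_apply_apply v)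

variable [CompleteSpace X]

/-- the solution of `u + K u = f` -/
def nv (K : X →L[ℂ] X) (f : X) : X := Ring.inverse (1 + K) f

theorem nv_unit {K : X →L[ℂ] X} (h : ‖K‖ < 1) : IsUnit (1 + K) := by
  rw [← sub_neg_eq_add]
  exact isUnit_one_sub_of_norm_lt_one (by rwa [norm_neg])

theorem nv_eq {K : X →L[ℂ] X} (h : ‖K‖ < 1) (f : X) : nv K f + K (nv K f) = f :=
  congrArg (fun L : X →L[ℂ] X => L f) (Ring.mul_inverse_cancel _ (nv_unit h))

theorem nv_uniq {K : X →L[ℂ] X} {u f : X} (h : ‖K‖ < 1) (hu : u + K u = f) : u = nv K f := by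
  have := congrArg (fun L : X →L[ℂ] X => L u) (Ring.inverse_mul_cancel _ (nv_unit h))
  rw [nv, ← hu]
  exact this.symm

theorem nv_zero (f : X) : nv 0 f = f := (nv_uniq (by simp) (by simp)).symm

theorem nv_an {K : X →L[ℂ] X} (h : ‖K‖ < 1) (f : X) :
    AnalyticAt ℂ (fun p : (X →L[ℂ] X) × X => nv p.1 p.2) (K, f) := by
  obtain ⟨u, hu⟩ := nv_unit h
  have h1 : AnalyticAt ℂ (fun p : (X →L[ℂ] X) × X => 1 + p.1) (K, f) :=
    analyticAt_const.add analyticAt_fst
  have h2 := (analyticAt_inverse (𝕜 := ℂ) u).comp_of_eq h1 hu.symm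
  exact ((ContinuousLinearMap.id ℂ (X →L[ℂ] X)).analyticAt_bilinear _).comp₂ h2 analyticAt_snd

theorem nv_df {P : Type} [NormedAddCommGroup P] [NormedSpace ℂ P] {K : P → X →L[ℂ] X} {f : P → X}
    {p : P} (h : ‖K p‖ < 1) (hK : DifferentiableAt ℂ K p) (hf : DifferentiableAt ℂ f p) :
    DifferentiableAt ℂ (fun q => nv (K q) (f q)) p :=
  (nv_an h (f p)).differentiableAt.comp (f := fun q => (K q, f q)) p (hK.prodMk hf)

end Vale.Agent.P275KC
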