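import Vale.Agent.P275KC.Su

/-!
P275 (helper23): the family of the block CN.
-/

set_option linter.all false

open scoped Topology Matrix.Norms.Operator ContDiff ComplexConjugate
open Filter Set Metric Matrix
open Vale.Agent.P281Z.Hm (an_inv an_det)
open Vale.Agent.P275GC Vale.Agent.P275GC.At Vale.Agent.P275KI Vale.Agent.P275MO
open Vale.Agent.P275NA (Fm Cy Mn db dz fc)
open Vale.Agent.P275RR (Rc SV rc_of ex ex_O ex_not)
open Vale.Agent.P275MB (off_res off_open)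

noncomputable section

namespace Vale.Agent.P275KC

variable {C : Type} [TopologicalSpace C] {A : At C} {n : ℕ} {l : Cy A ℂ} {g : Cy A (Mn n)}
  {i0 : Fin A.N} {ξ0 : ℂ} {ε : ℝ} {B : Vb A l g i0 ξ0 ε} {τ : Ty n}

section gen
variable {P E X Y : Type} [NormedAddCommGroup P] [NormedSpace ℂ P] [NormedAddCommGroup E]
  [NormedSpace ℂ E] [NormedAddCommGroup X] [NormedSpace ℂ X] [NormedAddCommGroup Y]
  [NormedSpace ℂ Y] {p : P}

theorem df_aff {a : P → ℂ} {s : P → E} {d : P → X} (c : X) (L : CL E X)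
    (ha : DifferentiableAt ℂ a p) (hs : DifferentiableAt ℂ s p) (hd : DifferentiableAt ℂ d p) :
    DifferentiableAt ℂ (fun q => a q • (c + L (s q)) + d q) p :=
  (ha.smul ((L.differentiableAt.comp p hs).const_add c)).add hd

theorem df_bil {s : P → E} {u : P → X} {d : P → Y} (L : CL E (CL X Y))
    (hs : DifferentiableAt ℂ s p) (hu : DifferentiableAt ℂ u p) (hd : DifferentiableAt ℂ d p) :
    DifferentiableAt ℂ (fun q => L (s q) (u q) + d q) p :=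
  ((L.differentiableAt.comp p hs).clm_apply hu).add hd

theorem df_sub {s : P → E} {u : P → Y} (L : CL E X) (L' : CL Y X) (hs : DifferentiableAt ℂ s p)
    (hu : DifferentiableAt ℂ u p) : DifferentiableAt ℂ (fun q => L (s q) - L' (u q)) p :=
  (L.differentiableAt.comp p hs).sub (L'.differentiableAt.comp p hu)

end gen

theorem df_minv {E : Type} [NormedAddCommGroup E] [NormedSpace ℂ E] {f : E → Mn n} {x : E}
    (h : DifferentiableAt ℂ f x) (h0 : (f x).det ≠ 0) : DifferentiableAt ℂ (fun t => (f t)⁻¹) x :=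
  (an_inv (𝕜 := ℂ) (f := fun X : Mn n => X) analyticAt_id h0).differentiableAt.comp x h

theorem ct_minv {T : Type} [TopologicalSpace T] {f : T → Mn n} {s : Set T} (h : ContinuousOn f s)
    (h0 : ∀ x ∈ s, (f x).det ≠ 0) : ContinuousOn (fun t => (f t)⁻¹) s := fun x a =>
  (an_inv (𝕜 := ℂ) (f := fun X : Mn n => X) analyticAt_id (h0 x a)).continuousAt.comp_continuousWithinAt
    (h x a)

theorem Fne (B : Vb A l g i0 ξ0 ε) {s : Cv B.k} (hs : s ∈ B.W) (i : Fin A.N) {w : ℂ}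
    (hw : w ∈ ball (0 : ℂ) B.r) : (B.F s i w).det ≠ 0 := by
  rw [(B.Fd s hs i w hw).1]; exact one_ne_zero

namespace Su

variable (S : Su B)
include S

theorem b1 {ξ : ℂ} (h : ξ ∈ ball ξ0 ε) : ξ ∈ ball (0 : ℂ) 1 := by
  have := S.lt
  rw [mem_ball_zero_iff]
  linarith [norm_le_norm_add_norm_sub' ξ ξ0, mem_ball_iff_norm.1 h]

theorem b4 : ball ξ0 (ε / 4) ⊆ ball ξ0 ε := ball_subset_ball (by linarith [S.pos])

theorem br {ξ : ℂ} (h : ξ ∈ ball ξ0 (ε / 4)) : ξ ∈ ball (0 : ℂ) B.r :=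
  ball_subset_ball B.h1.le (S.b1 (S.b4 h))

theorem bR {ξ : ℂ} (h : ξ ∈ ball ξ0 (ε / 4)) : ξ ∈ ball (0 : ℂ) A.R :=
  ball_subset_ball B.h2 (S.br h)

theorem df_P : DifferentiableOn ℂ (fun p : Cv B.k × ℂ => B.F p.1 i0 p.2) (B.W ×ˢ ball ξ0 ε) := by
  have m : ball ξ0 ε ⊆ ball 0 B.r := fun _ a => ball_subset_ball B.h1.le (S.b1 a)
  refine osg_prod (B.op.prod isOpen_ball) ((B.Fc i0).mono (prod_mono_right m))
    (fun p a => (B.Fh i0 _ (m a.2)).differentiableAt (B.op.mem_nhds a.1)) fun p a => ?_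
  have n1 := isOpen_ball.mem_nhds (m a.2)
  exact (Frm.an ⟨(B.sm p.1).at (ball_subset_ball B.h2 (m a.2)) i0, (B.Fs _ a.1 i0).contDiffAt n1,
    eventually_of_mem n1 (B.Fd _ a.1 i0)⟩
      (eventually_of_mem (isOpen_ball.mem_nhds a.2) (B.van p.1))).differentiableAt

/-- the residue in the frame of `g` -/
def X (y : Yp τ B.k S.K.k) : Mn n := rt (B.F y.1 i0 y.2.2.1) y.2.2.2.1 y.2.2.2.2.1

/-- the inhomogeneous term -/
def N (y : Yp τ B.k S.K.k) : Sct A (bar A (adK A g)) :=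
  y.2.1 • (S.c0 + S.cL y.1) + S.D (y.2.2.1, S.X y)

/-- the perturbation -/
def Ko (s : Cv B.k) : CL (Sct A (adK A g)) (Sct A (adK A g)) := S.K.S.comp (S.ad s)

/-- the solution -/
def β (y : Yp τ B.k S.K.k) : Sct A (adK A g) := nv (S.Ko y.1) (S.K.e y.2.2.2.2.2 - S.K.S (S.N y))

/-- the right hand side -/
def f (y : Yp τ B.k S.K.k) : Sct A (bar A (adK A g)) := S.ad y.1 (S.β y) + S.N y

variable (τ) in
/-- the domain -/
def W : Set (Yp τ B.k S.K.k) :=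
  {y | y.1 ∈ B.W ∧ y.2.2.1 ∈ ball ξ0 (ε / 4) ∧ y.2.2.2.1.det ≠ 0 ∧ ‖S.Ko y.1‖ < 1}

/-- the connection matrix in the frame of `g` -/
def b (y : Yp τ B.k S.K.k) : Fm A (Mn n) :=
  bt A g i0 S.χ0 S.A0 y.2.1 y.2.2.1 (S.X y) (Sct.fm A (S.β y))

/-- the family -/
def F (y : Yp τ B.k S.K.k) : Dat C A.N n :=
  mkD A g i0 (B.F y.1) (S.b y) y.2.1 y.2.2.1 y.2.2.2.1 y.2.2.2.2.1

/-- the part of the connection away from the pole -/
def aw (s : Cv B.k) (z : Dat C A.N n) : Fm A (Mn n) := fun i w =>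
  cf A i0 S.χ i w • (bk A (B.F s) z i w - z.lam • S.A0 i w)

/-- the remaining coordinates -/
def th (s : Cv B.k) (z : Dat C A.N n) : Cv S.K.k := S.K.L (P275KI.mk (adK A g) (S.aw s z))

variable {y : Yp τ B.k S.K.k}

theorem df_Ko : Differentiable ℂ S.Ko :=
  (((ContinuousLinearMap.compL ℂ _ _ _) S.K.S).comp S.ad).differentiable

theorem op : IsOpen (S.W τ) :=
  (B.op.preimage continuous_fst).inter ((isOpen_ball.preimage (by fun_prop)).inter
    ((isOpen_ne_fun (Continuous.matrix_det (by fun_prop)) continuous_const).inter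
      (isOpen_lt (S.df_Ko.continuous.comp continuous_fst).norm continuous_const)))

theorem df_X (h : y ∈ S.W τ) : DifferentiableAt ℂ S.X y := by
  have p : DifferentiableAt ℂ (fun y : Yp τ B.k S.K.k => B.F y.1 i0 y.2.2.1) y :=
    (S.df_P.differentiableAt ((B.op.prod isOpen_ball).mem_nhds (mk_mem_prod h.1 (S.b4 h.2.1)))).comp
      (f := fun y : Yp τ B.k S.K.k => (y.1, y.2.2.1)) y (by fun_prop)
  have q : DifferentiableAt ℂ (fun y : Yp τ B.k S.K.k => y.2.2.2.1) y := by fun_prop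
  have r : DifferentiableAt ℂ (fun y : Yp τ B.k S.K.k => (y.2.2.2.2.1 : Mn n)) y :=
    τ.q.subtypeL.differentiableAt.comp y (by fun_prop)
  exact (((p.mul q).mul r).mul (df_minv q h.2.2.1)).mul (df_minv p (Fne B h.1 i0 (S.br h.2.1)))

theorem df_N (h : y ∈ S.W τ) : DifferentiableAt ℂ S.N y :=
  have p : DifferentiableAt ℂ (fun y : Yp τ B.k S.K.k => (y.2.2.1, S.X y)) y :=
    DifferentiableAt.prodMk (by fun_prop) (S.df_X h)
  df_aff (a := fun y : Yp τ B.k S.K.k => y.2.1) S.c0 S.cL (by fun_prop) differentiableAt_fst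
    ((S.dD.differentiableAt ((isOpen_ball.preimage continuous_fst).mem_nhds h.2.1)).comp y p)

theorem df_β (h : y ∈ S.W τ) : DifferentiableAt ℂ S.β y :=
  nv_df (K := fun y : Yp τ B.k S.K.k => S.Ko y.1) h.2.2.2 ((S.df_Ko _).comp y differentiableAt_fst)
    (df_sub (s := fun y : Yp τ B.k S.K.k => y.2.2.2.2.2) S.K.e S.K.S (by fun_prop) (S.df_N h))

theorem df_f (h : y ∈ S.W τ) : DifferentiableAt ℂ S.f y :=
  df_bil S.ad differentiableAt_fst (S.df_β h) (S.df_N h)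

theorem β_eq (h : y ∈ S.W τ) : S.β y = S.K.e y.2.2.2.2.2 - S.K.S (S.f y) := by
  rw [f, map_add, ← sub_sub, sub_right_comm]
  exact eq_sub_of_add_eq (nv_eq h.2.2.2 _)

theorem fm_f (h : y ∈ S.W τ) (u : Sct A (adK A g)) (i : Fin A.N) {w : ℂ}
    (hw : w ∈ ball (0 : ℂ) A.R) : Sct.fm A (S.ad y.1 u + S.N y) i w =
      frc A g i0 S.χ0 S.A0 (B.sf y.1) y.2.1 y.2.2.1 (S.X y) (Sct.fm A u) i w := by
  rw [N, fm_add, fm_add, fm_smul, S.had _ _ i w hw, S.hc _ i w hw, S.hD _ h.2.1 i w hw, frc]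

theorem tr_X (h : y ∈ S.W τ) : (S.X y).trace = 0 := by
  rw [X, rt, mul_assoc (B.F _ _ _), mul_assoc (B.F _ _ _),
    tr_cj (nonsing_inv_mul _ (Fne B h.1 i0 (S.br h.2.1)).isUnit),
    tr_cj (nonsing_inv_mul _ h.2.2.1.isUnit)]
  exact τ.tr _ y.2.2.2.2.1.2

theorem tf_f (h : y ∈ S.W τ) (u : Sct A (adK A g)) : TF (tfL n) (S.ad y.1 u + S.N y) :=
  fun i w a => tf_iff.2 (by
    rw [S.fm_f h u i (mem_of_le a), frc, trace_add, trace_add, trace_sub, trace_mul_comm, sub_self,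
      trace_smul, S.trc _ i w (mem_of_le a), S.trd _ _ (S.tr_X h), smul_zero, add_zero, add_zero])

theorem tr_β (h : y ∈ S.W τ) (i : Fin A.N) (w : ℂ) (hw : w ∈ ball (0 : ℂ) A.R) :
    (Sct.fm A (S.β y) i w).trace = 0 := by
  rw [S.β_eq h]
  exact tf_iff.1 (S.K.tr _ _ i w hw)

theorem cp1 (h1 : CP1 n A l) (h : y ∈ S.W τ) :
    (∀ i, ∀ w ∈ ball (0 : ℂ) B.r, bk A (B.F y.1) (S.F y) i w = S.b y i w) ∧
      (S.K.ob (S.f y) = 0 → Good (A.res B.r B.h1 B.h2) l (S.F y)) := by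
  obtain ⟨p, q⟩ := h1 g i0 ξ0 ε B S.χ0 S.χ S.A0 (Sct.fm A (S.β y)) y.1 y.2.1 y.2.2.1 y.2.2.2.1
    y.2.2.2.2.1 S.cc S.lt S.cu S.ref h.1 h.2.1 h.2.2.1 (τ.tr _ y.2.2.2.2.1.2)
    (fm_sv (rc_of S.ccK) _) (S.tr_β h)
  refine ⟨p, fun o => q fun i w a => ?_⟩
  have a' := ball_subset_ball B.h2 a
  have := S.K.sol y.2.2.2.2.2 (S.f y) (S.tf_f h (S.β y)) o i w a'
  rw [← S.β_eq h] at this
  exact this.congr EventuallyEq.rfl (eventually_of_mem (isOpen_ball.mem_nhds a') fun x c =>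
    congrArg Neg.neg (S.fm_f h _ i c).symm)

theorem F_σ (h : y ∈ S.W τ) : (S.F y).σ i0 = y.2.2.2.1 := by
  show fc A (B.F y.1) g i0 i0 (A.e i0 ((A.e i0).symm y.2.2.1)) * _ = _
  rw [rinv (S.bR h.2.1), (B.bun _ h.1).cc.one i0 _ (S.br h.2.1), one_mul]

/-- the cut-off function vanishes at the pole -/
theorem c_pole {x : C} (hx : x ∈ (A.e i0).source) (h : A.e i0 x ∈ ball ξ0 (ε / 4)) {i : Fin A.N}
    {w : ℂ} (hw : w ∈ ball (0 : ℂ) A.R) (e : (A.e i).symm w = x) : cf A i0 S.χ i w = 0 :=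
  S.c4 i w ⟨hw, by rwa [mem_preimage, e]⟩ (by
    rw [At.tr, e]; exact ball_subset_ball (by linarith [S.pos]) h)

theorem con (h1 : CP1 n A l) (h : y ∈ S.W τ) : yc A τ i0 S.th y.1 (S.F y) = y := by
  refine Prod.ext rfl (Prod.ext rfl (Prod.ext (rinv (S.bR h.2.1)) (Prod.ext (S.F_σ h)
    (Prod.ext (τ.pq_coe _) ?_))))
  rw [← S.K.crd y.2.2.2.2.2 (S.f y), ← S.β_eq h]
  refine congrArg S.K.L (mk_congr fun i w a => ?_)
  rw [aw, (S.cp1 h1 h).1 i w (mem_ball_zero_iff.2 (a.trans_lt B.h1)), b, bt,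
    show (S.F y).lam = y.2.1 from rfl, add_comm (_ • _), ← add_assoc, add_sub_cancel_right,
    smul_add, S.c3 i _ _ w (mem_of_le a), add_zero]

theorem loc (s : Cv B.k) {r' : ℝ} (h1' : 1 < r') (h2' : r' ≤ A.R) {z z' : Dat C A.N n}
    (hx : z.x ∈ (A.e i0).source) (h : A.e i0 z.x ∈ ball ξ0 (ε / 4))
    (e : Same (A.res r' h1' h2') z z') : S.th s z' = S.th s z := by
  refine congrArg S.K.L (mk_congr fun i w a => ?_)
  by_cases c : (A.e i).symm w = z.x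
  · rw [aw, aw, S.c_pole hx h (mem_of_le a) c, zero_smul, zero_smul]
  · rw [aw, aw, bk, bk, e.lam, e.a i w ⟨mem_ball_zero_iff.2 (a.trans_lt h1'), c⟩]

theorem rcv (h2 : CP2 n A l) {s : Cv B.k} {r' : ℝ} (h1' : 1 < r') (h2' : r' ≤ B.r)
    {z : Dat C A.N n} (hz : Good (A.res r' h1' (h2'.trans B.h2)) l z) (hR : z.R ∈ τ.q)
    (hx : z.x ∈ (A.e i0).source) (hg : ∀ i j, ∀ w ∈ (A.res r' h1' (h2'.trans B.h2)).O i j,
      z.g i j w = fc A (B.F s) g i j w) (h : yc A τ i0 S.th s z ∈ S.W τ) :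
    S.K.ob (S.f (yc A τ i0 S.th s z)) = 0 ∧
      Same (A.res r' h1' (h2'.trans B.h2)) z (S.F (yc A τ i0 S.th s z)) ∧
      ∀ i, ∀ w ∈ off (A.res r' h1' (h2'.trans B.h2)) z.x i,
        S.b (yc A τ i0 S.th s z) i w = bk A (B.F s) z i w := by
  obtain ⟨-, u, a1, a2, a3, a4⟩ := h2 g i0 ξ0 ε B S.χ0 S.χ S.A0 s r' h1' h2' z S.cc S.lt S.cu S.ref
    h.1 hz hx h.2.1 hg
  have rG := rc_of S.ccK
  have m : ∀ {w : ℂ}, ‖w‖ ≤ 1 → w ∈ ball (0 : ℂ) r' := fun a => mem_ball_zero_iff.2 (a.trans_lt h1')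
  have e1 : ∀ i, ∀ w ∈ ball (0 : ℂ) r', Sct.fm A (P275KI.mk (adK A g) u) i w = u i w :=
    fun i w a => fm_mk_res rG (fun i w a => (a2 i w a).2.ct.continuousWithinAt) a1 a
  have eX : S.X (yc A τ i0 S.th s z) = rt (B.F s i0 (A.e i0 z.x)) (z.σ i0) z.R :=
    congrArg (rt _ _) (τ.coe_pq hR)
  obtain ⟨p, q⟩ := S.K.uni (P275KI.mk _ u) _ (fun i w a => tf_iff.2 (by
    rw [e1 i w (m a)]; exact (a2 i w (m a)).1)) (S.tf_f h (P275KI.mk _ u)) fun i w a =>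
      (a2 i w (m a.le)).2.congr (eventually_of_mem (isOpen_ball.mem_nhds (m a.le)) (e1 i))
        (eventually_of_mem (isOpen_ball.mem_nhds (m a.le)) fun x c => congrArg Neg.neg (by
          rw [S.fm_f h _ i (ball_subset_ball (h2'.trans B.h2) c), eX, frc, frc, e1 i x c]; rfl))
  have e2 : S.K.L (P275KI.mk (adK A g) fun i w => cf A i0 S.χ i w •
      Sct.fm A (P275KI.mk (adK A g) u) i w) = S.th s z := by
    refine congrArg S.K.L (mk_congr fun i w a => ?_)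
    by_cases c : (A.e i).symm w = z.x
    · rw [aw, S.c_pole hx h.2.1 (mem_of_le a) c, zero_smul, zero_smul]
    · rw [aw, ← a3 i w ⟨m a, c⟩, e1 i w (m a), bt, add_comm (_ • _), ← add_assoc,
        add_sub_cancel_right, smul_add, S.c3 i _ _ w (mem_of_le a), add_zero]
  have e3 : P275KI.mk (adK A g) u = S.β (yc A τ i0 S.th s z) := nv_uniq h.2.2.2 (by
    rw [e2, map_add, ← sub_sub, sub_right_comm] at q
    exact add_eq_of_eq_sub q)
  have e4 : ∀ i, ∀ w ∈ off (A.res r' h1' (h2'.trans B.h2)) z.x i,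
      S.b (yc A τ i0 S.th s z) i w = bk A (B.F s) z i w := fun i w a => by
    rw [← a3 i w a, b, eX, ← e3]
    exact congrArg (· + _) (e1 i w a.1)
  refine ⟨by rw [f, ← e3]; exact p, ?_, e4⟩
  have := a4 _ e4
  rw [← τ.coe_pq hR] at this
  exact this

end Su

end Vale.Agent.P275KC
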