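import Vale.Agent.P275KC.Main
import Vale.Agent.P275RR.Dol
import Vale.Agent.P275K0.Cp0
import Vale.Agent.P275KS.Sur
import Vale.Agent.P275MO.CP1
import Vale.Agent.P275MO.CP2
import Vale.Agent.P275MO.Kur

/-!
P275 (helper23): the block CN without hypotheses.
-/

set_option linter.all false

noncomputable section

namespace Vale.Agent.P275KC

open Vale.Agent.P275GC Vale.Agent.P275MO
open Vale.Agent.P275NA (Cy)

variable {C : Type} [TopologicalSpace C]

theorem cn0 [T2Space C] [ConnectedSpace C] (n : ℕ) (A : At C) (l : Cy A ℂ) : CN n A l :=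
  cn' (P275RR.dol A) (P275K0.cp0 A n) (cp1 n A l) (cp2 n A l) (P275KS.sur A l n)

theorem kur_vb {n : ℕ} {A : At C} {l : Cy A ℂ} {d : ℤ} (h : Std A l n d)
    (vb : ∀ r h1 h2, VB n (A.res r h1 h2) l) (opst : ∀ r h1 h2, OPST n (A.res r h1 h2) l) :
    KUR n A l :=
  have := h.t2
  have := h.conn
  kur_of h vb (fun _ _ _ => cn0 _ _ _) opst

end Vale.Agent.P275KC
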