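import Vale.Agent.P275KC.Fam

/-!
P275 (helper23): the block CN, dependence on parameters.
-/

set_option linter.all false

open scoped Topology Matrix.Norms.Operator ContDiff ComplexConjugate
open Filter Set Metric Matrix
open Vale.Agent.P275GC Vale.Agent.P275GC.At Vale.Agent.P275KI Vale.Agent.P275MO
open Vale.Agent.P275NA (Fm Cy Mn db dz fc)
open Vale.Agent.P275RR (Rc SV rc_of)
open Vale.Agent.P275MB (off_res off_open)

noncomputable section

namespace Vale.Agent.P275KC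

variable {C : Type} [TopologicalSpace C] [T2Space C] {A : At C} {n : ℕ} {l : Cy A ℂ}
  {g : Cy A (Mn n)} {i0 : Fin A.N} {ξ0 : ℂ} {ε : ℝ} {B : Vb A l g i0 ξ0 ε} {τ : Ty n}

theorem ct_df {P X : Type} [NormedAddCommGroup P] [NormedSpace ℂ P] [NormedAddCommGroup X]
    [NormedSpace ℂ X] {f : P → X} {W : Set P} (h : ∀ p ∈ W, DifferentiableAt ℂ f p) :
    ContinuousOn f W := fun p a => (h p a).continuousAt.continuousWithinAt

theorem off_joint {T : Type} [TopologicalSpace T] {V : Set T} (hV : IsOpen V) {x : T → C}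
    (hx : ContinuousOn x V) (i : Fin A.N) :
    IsOpen {p : T × ℂ | p.1 ∈ V ∧ p.2 ∈ off A (x p.1) i} := by
  have c : ContinuousOn (fun p : T × ℂ => ((A.e i).symm p.2, x p.1)) (V ×ˢ ball 0 A.R) :=
    ((cont_symm i).comp continuousOn_snd fun _ a => a.2).prodMk
      (hx.comp continuousOn_fst fun _ a => a.1)
  have := c.isOpen_inter_preimage (hV.prod isOpen_ball) isClosed_diagonal.isOpen_compl
  rwa [show {p : T × ℂ | p.1 ∈ V ∧ p.2 ∈ off A (x p.1) i} = _ from
    Set.ext fun p => (and_assoc (a := p.1 ∈ V)).symm]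

theorem ct_F {T : Type} [TopologicalSpace T] {s : T → Cv B.k} {w : T → ℂ} {D : Set T}
    (hs : ContinuousOn s D) (hw : ContinuousOn w D) (m : ∀ t ∈ D, s t ∈ B.W ∧ w t ∈ ball 0 B.r)
    (i : Fin A.N) : ContinuousOn (fun t => B.F (s t) i (w t)) D ∧
      ContinuousOn (fun t => dz (B.F (s t) i) (w t)) D ∧
      ContinuousOn (fun t => (B.F (s t) i (w t))⁻¹) D :=
  have a := (B.Fc i).comp (hs.prodMk hw) m
  have b := (B.Pc i).comp (hs.prodMk hw) m
  have c := ct_minv a fun t h => Fne B (m t h).1 i (m t h).2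
  ⟨a, b, c⟩

theorem df_F {E : Type} [NormedAddCommGroup E] [NormedSpace ℂ E] {s : E → Cv B.k} {t : E} {w : ℂ}
    (hs : DifferentiableAt ℂ s t) (m : s t ∈ B.W) (hw : w ∈ ball 0 B.r) (i : Fin A.N) :
    DifferentiableAt ℂ (fun t => B.F (s t) i w) t ∧
      DifferentiableAt ℂ (fun t => dz (B.F (s t) i) w) t ∧
      DifferentiableAt ℂ (fun t => (B.F (s t) i w)⁻¹) t :=
  have a := ((B.Fh i w hw).differentiableAt (B.op.mem_nhds m)).comp t hs
  ⟨a, ((B.Ph i w hw).differentiableAt (B.op.mem_nhds m)).comp t hs, df_minv a (Fne B m i hw)⟩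

namespace Su

variable (S : Su B) {y : Yp τ B.k S.K.k}

theorem df_a (h : y ∈ S.W τ) (i : Fin A.N) {w : ℂ}
    (hw : w ∈ off (A.res B.r B.h1 B.h2) ((A.e i0).symm y.2.2.1) i) :
    DifferentiableAt ℂ (fun y : Yp τ B.k S.K.k => (S.F y).a i w) y := by
  obtain ⟨a, b, c⟩ := df_F (differentiableAt_fst (p := y)) h.1 hw.1 i
  have p : DifferentiableAt ℂ (fun y : Yp τ B.k S.K.k => (y.2.2.1, S.X y)) y :=
    DifferentiableAt.prodMk (by fun_prop) (S.df_X h)
  have q : DifferentiableAt ℂ (fun y : Yp τ B.k S.K.k => y.2.1) y := by fun_prop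
  have e := (S.dp i (y.2.2.1, S.X y) h.2.1 w (off_res hw)).comp y p
  have d : DifferentiableAt ℂ (fun y : Yp τ B.k S.K.k => S.b y i w) y :=
    (df_fm (S.df_β h) i w).add ((q.smul_const _).add e)
  exact (tfL n).differentiableAt.comp y (c.mul ((q.smul b).add (d.mul a)))

theorem ct_a {T : Type} [TopologicalSpace T] {ι : T → Yp τ B.k S.K.k} {w : T → ℂ} {D : Set T}
    (hι : ContinuousOn ι D) (hw : ContinuousOn w D) (i : Fin A.N) (m : ∀ t ∈ D, ι t ∈ S.W τ ∧
      w t ∈ off (A.res B.r B.h1 B.h2) ((A.e i0).symm (ι t).2.2.1) i) :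
    ContinuousOn (fun t => (S.F (ι t)).a i (w t)) D := by
  obtain ⟨a, b, c⟩ := ct_F hι.fst hw (fun t h => ⟨(m t h).1.1, (m t h).2.1⟩) i
  have mR : ∀ t ∈ D, w t ∈ ball (0 : ℂ) A.R := fun t h => ball_subset_ball B.h2 (m t h).2.1
  have m1 : MapsTo ι D (S.W τ) := fun t h => (m t h).1
  have cX := (ct_df (W := S.W τ) fun y h => S.df_X h).comp hι m1
  have cβ := (ct_df (W := S.W τ) fun y h => S.df_β h).comp hι m1
  have d1 := (joint_fm (rc_of S.ccK) cβ i).comp (continuousOn_id.prodMk hw) fun t h => ⟨h, mR t h⟩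
  have d2 := (S.ref.sm.ct i).comp hw mR
  have d3 := (S.cp i).comp ((hι.snd.snd.fst.prodMk cX).prodMk hw)
    fun t h => ⟨(m t h).1.2.1, off_res (m t h).2⟩
  have d : ContinuousOn (fun t => S.b (ι t) i (w t)) D := d1.add ((hι.snd.fst.smul d2).add d3)
  exact (tfL n).continuous.comp_continuousOn (c.mul ((hι.snd.fst.smul b).add (d.mul a)))

theorem fam (h1 : CP1 n A l) {E : Type} [NormedAddCommGroup E] [NormedSpace ℂ E]
    [FiniteDimensional ℂ E] {ι : E → Yp τ B.k S.K.k} {V : Set E} (hV : IsOpen V)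
    (hι : DifferentiableOn ℂ ι V) (h : ∀ t ∈ V, ι t ∈ S.W τ ∧ S.K.ob (S.f (ι t)) = 0) :
    HFamOn (A.res B.r B.h1 B.h2) l (fun t => S.F (ι t)) V := by
  have good := fun t a => (S.cp1 h1 (h t a).1).2 (h t a).2
  have hx := (cont_symm (A := A) i0).comp hι.continuousOn.snd.snd.fst
    fun t a => S.bR (h t a).1.2.1
  have hR := τ.q.subtypeL.differentiable.comp_differentiableOn hι.snd.snd.snd.snd.fst
  have hg := fun i j => (B.hg i j).comp (s := V ×ˢ (A.res B.r B.h1 B.h2).O i j)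
    ((hι.fst.comp differentiableOn_fst fun _ a => a.1).prodMk differentiableOn_snd)
      fun p a => ⟨(h _ a.1).1.1, a.2⟩
  have ht := fun i => (A.hol i0 i).comp (s := {t | t ∈ V ∧
    (A.e i0).symm (ι t).2.2.1 ∈ ((A.res B.r B.h1 B.h2).e i).source})
      (hι.snd.snd.fst.mono fun _ a => a.1) fun t a => ⟨S.bR (h t a.1).1.2.1, a.2.1⟩
  have h3 := fun i => (hg i i0).comp (differentiableOn_id.prodMk (ht i)) fun t a => ⟨a.1,
    tr_mem (A := A.res B.r B.h1 B.h2) ⟨S.br (h t a.1).1.2.1, a.2⟩⟩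
  have hσ := fun i => (h3 i).mul (hι.snd.snd.snd.fst.mono fun _ a => a.1)
  have ca : ∀ i, ContinuousOn (fun p : E × ℂ => (S.F (ι p.1)).a i p.2) {p | p.1 ∈ V ∧
      p.2 ∈ off (A.res B.r B.h1 B.h2) ((A.e i0).symm (ι p.1).2.2.1) i} := fun i =>
    S.ct_a (ι := fun p : E × ℂ => ι p.1)
      (hι.continuousOn.comp continuousOn_fst fun _ a => a.1) continuousOn_snd i
        fun p a => ⟨(h _ a.1).1, a.2⟩
  refine ⟨⟨good, hι.continuousOn.snd.fst, hx, hR.continuousOn, fun i j => (hg i j).continuousOn, ca,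
    fun i => (hσ i).continuousOn⟩, hι.snd.fst, ht, hR, hg, fun i =>
      osg_prod (off_joint (A := A.res B.r B.h1 B.h2) hV hx i) (ca i) (fun p a => ?_)
        fun p a => ((good _ a.1).hol i).differentiableAt ((off_open _ i).mem_nhds a.2), hσ⟩
  have := (S.df_a (h _ a.1).1 i a.2).comp p.1 (hι.differentiableAt (hV.mem_nhds a.1))
  exact this

/-- either the cut-off function vanishes near the point or no pole is near -/
theorem alt {i : Fin A.N} {w : ℂ} (hw : w ∈ ball (0 : ℂ) A.R) :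
    (∀ᶠ u in 𝓝 w, cf A i0 S.χ i u = 0) ∨ ∀ᶠ u in 𝓝 w, ∀ x ∈ (A.e i0).source,
      A.e i0 x ∈ ball ξ0 (ε / 4) → (A.e i).symm u ≠ x := by
  have hε := S.pos
  have hK : closedBall ξ0 (ε / 4) ⊆ ball 0 A.R := fun u a =>
    ball_subset_ball A.hR.le (S.b1 (closedBall_subset_ball (by linarith) a))
  by_cases c : (A.e i).symm w ∈ (A.e i0).symm '' closedBall ξ0 (ε / 4)
  · obtain ⟨u, a, b⟩ := c
    have o : w ∈ A.O i i0 := ⟨hw, by rw [mem_preimage, ← b]; exact map_tgt (hK a)⟩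
    have e : A.tr i i0 w ∈ ball ξ0 (ε / 2) := by
      rw [At.tr, ← b, rinv (hK a)]; exact closedBall_subset_ball (by linarith) a
    left
    filter_upwards [O_nhds o, (an_tr o).continuousAt.eventually (isOpen_ball.mem_nhds e)] with u p q
      using S.c4 i u p q
  · exact Or.inr ((ev_off (isCompact_closedBall _ _) hK hw c).mono fun u a x p q e =>
      a ⟨_, ball_subset_closedBall q, ((A.e i0).left_inv p).trans e.symm⟩)

section th
variable {T : Type} [TopologicalSpace T] {s : T → Cv B.k} {G : T → Dat C A.N n} {V : Set T}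
  {r' : ℝ} {h1' : 1 < r'} (h2' : r' ≤ B.r)

theorem ct_aw (hG : FamOn (A.res r' h1' (h2'.trans B.h2)) l G V) (hs : ContinuousOn s V)
    (h : ∀ t ∈ V, s t ∈ B.W ∧ (G t).x ∈ (A.e i0).source ∧ A.e i0 (G t).x ∈ ball ξ0 (ε / 4))
    (i : Fin A.N) :
    ContinuousOn (fun p : T × ℂ => S.aw (s p.1) (G p.1) i p.2) (V ×ˢ ball 0 r') := fun p hp => by
  have mR : ball (0 : ℂ) r' ⊆ ball 0 A.R := ball_subset_ball (h2'.trans B.h2)
  have k : ∀ {P : ℂ → Prop}, (∀ᶠ u in 𝓝 p.2, P u) → ∀ᶠ q in 𝓝[V ×ˢ ball 0 r'] p, P q.2 :=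
    fun a => nhdsWithin_le_nhds (continuous_snd.continuousAt.eventually a)
  rcases S.alt (i := i) (mR hp.2) with c | c
  · refine (continuousWithinAt_const (b := (0 : Mn n))).congr_of_eventuallyEq
      ((k c).mono fun q a => ?_) ?_
    · simp only [aw, a, zero_smul]
    · simp only [aw, c.self_of_nhds, zero_smul]
  · let D := {q : T × ℂ | q.1 ∈ V ∧ q.2 ∈ off (A.res r' h1' (h2'.trans B.h2)) (G q.1).x i}
    have f1 : ContinuousOn (fun q : T × ℂ => q.1) D := continuousOn_fst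
    obtain ⟨a1, a2, a3⟩ := ct_F (D := D) (hs.comp f1 fun _ a => a.1) continuousOn_snd
      (fun q a => ⟨(h _ a.1).1, ball_subset_ball h2' a.2.1⟩) i
    have a4 := hG.lam.comp f1 fun _ a => a.1
    have a5 : ContinuousOn (fun p : T × ℂ => S.aw (s p.1) (G p.1) i p.2) D :=
      ((S.c1 i).comp continuousOn_snd fun _ a => mR a.2.1).smul
        (((((a1.mul (hG.a i)).sub (a4.smul a2)).mul a3)).sub
          (a4.smul ((S.ref.sm.ct i).comp continuousOn_snd fun _ a => mR a.2.1)))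
    refine (a5 p ⟨hp.1, hp.2, c.self_of_nhds _ (h _ hp.1).2.1 (h _ hp.1).2.2⟩).mono_of_mem_nhdsWithin ?_
    filter_upwards [k c, self_mem_nhdsWithin] with q a b
      using ⟨b.1, b.2, a _ (h _ b.1).2.1 (h _ b.1).2.2⟩

theorem us_aw (h2 : CP2 n A l) (hG : FamOn (A.res r' h1' (h2'.trans B.h2)) l G V)
    (hs : ContinuousOn s V) (h : ∀ t ∈ V, s t ∈ B.W ∧ (G t).x ∈ (A.e i0).source ∧
      A.e i0 (G t).x ∈ ball ξ0 (ε / 4) ∧ ∀ i j, ∀ w ∈ (A.res r' h1' (h2'.trans B.h2)).O i j,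
        (G t).g i j w = fc A (B.F (s t)) g i j w) (t : T) (ht : t ∈ V) :
    US A (adK A g) (S.aw (s t) (G t)) := by
  obtain ⟨a, b, c, d⟩ := h t ht
  refine us_res (h1 := h1') (h2 := h2'.trans B.h2) (fun i => (S.ct_aw h2' hG hs
    (fun t e => ⟨(h t e).1, (h t e).2.1, (h t e).2.2.1⟩) i).comp (f := fun w => (t, w))
      (by fun_prop) fun _ e => ⟨ht, e⟩) fun (i j : Fin A.N) w e => ?_
  have e' := (res_O.1 e).1
  show S.aw _ _ i w = adK A g i j w (S.aw _ _ j (A.tr i j w))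
  rw [aw, aw, map_smul, ← S.c2 i j w e']
  by_cases p : (A.e i).symm w = (G t).x
  · rw [S.c_pole b c e'.1 p, zero_smul, zero_smul]
  · rw [(h2 g i0 ξ0 ε B S.χ0 S.χ S.A0 (s t) r' h1' h2' (G t) S.cc S.lt S.cu S.ref a (hG.good t ht)
      b c d).1 i j w e p]

theorem thc (h2 : CP2 n A l) (hG : FamOn (A.res r' h1' (h2'.trans B.h2)) l G V)
    (hs : ContinuousOn s V) (h : ∀ t ∈ V, s t ∈ B.W ∧ (G t).x ∈ (A.e i0).source ∧
      A.e i0 (G t).x ∈ ball ξ0 (ε / 4) ∧ ∀ i j, ∀ w ∈ (A.res r' h1' (h2'.trans B.h2)).O i j,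
        (G t).g i j w = fc A (B.F (s t)) g i j w) : ContinuousOn (fun t => S.th (s t) (G t)) V :=
  S.K.L.continuous.comp_continuousOn (cont_mk (rc_of S.ccK) (S.us_aw h2' h2 hG hs h) fun i =>
    (S.ct_aw h2' hG hs (fun t e => ⟨(h t e).1, (h t e).2.1, (h t e).2.2.1⟩) i).mono
      (prod_mono_right (closedBall_subset_ball h1')))

end th

theorem thh (h2 : CP2 n A l) {T : Type} [NormedAddCommGroup T] [NormedSpace ℂ T]
    [FiniteDimensional ℂ T] {s : T → Cv B.k} {G : T → Dat C A.N n} {V : Set T} {r' : ℝ}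
    {h1' : 1 < r'} (h2' : r' ≤ B.r) (hV : IsOpen V)
    (hG : HFamOn (A.res r' h1' (h2'.trans B.h2)) l G V) (hs : DifferentiableOn ℂ s V)
    (h : ∀ t ∈ V, s t ∈ B.W ∧ (G t).x ∈ (A.e i0).source ∧
      A.e i0 (G t).x ∈ ball ξ0 (ε / 4) ∧ ∀ i j, ∀ w ∈ (A.res r' h1' (h2'.trans B.h2)).O i j,
        (G t).g i j w = fc A (B.F (s t)) g i j w) :
    DifferentiableOn ℂ (fun t => S.th (s t) (G t)) V := by
  refine S.K.L.differentiable.comp_differentiableOn (df_mk (rc_of S.ccK) hV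
    (S.us_aw h2' h2 hG.toFamOn hs.continuousOn h) (fun i => (S.ct_aw h2' hG.toFamOn hs.continuousOn
      (fun t e => ⟨(h t e).1, (h t e).2.1, (h t e).2.2.1⟩) i).mono
        (prod_mono_right (closedBall_subset_ball h1'))) fun i w hw => ?_)
  have m : w ∈ ball (0 : ℂ) r' := mem_ball_zero_iff.2 (hw.trans_lt h1')
  rcases S.alt (i := i) (mem_of_le hw) with c | c
  · simp only [aw, c.self_of_nhds, zero_smul]
    exact differentiableOn_const _
  · intro t ht
    obtain ⟨a1, a2, a3⟩ := df_F (hs.differentiableAt (hV.mem_nhds ht)) (h t ht).1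
      (ball_subset_ball h2' m) i
    have a4 := hG.hlam.differentiableAt (hV.mem_nhds ht)
    have a5 : DifferentiableAt ℂ (fun t => (G t).a i w) t := ((hG.ha i).comp
      (f := fun t => (t, w)) (by fun_prop) fun t e =>
        ⟨e, m, c.self_of_nhds _ (h t e).2.1 (h t e).2.2.1⟩).differentiableAt (hV.mem_nhds ht)
    exact (((((a1.mul a5).sub (a4.smul a2)).mul a3).sub (a4.smul_const _)).const_smul
      (cf A i0 S.χ i w)).differentiableWithinAt

end Su

end Vale.Agent.P275KC
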