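import Vale.Agent.P275KC.Hol

/-!
P275 (helper23): the block CN.
-/

set_option linter.all false

open scoped Topology Matrix.Norms.Operator ContDiff ComplexConjugate
open Filter Set Metric Matrix
open Vale.Agent.P281Z.Hm (wd wd_congr wd_const)
open Vale.Agent.P275GC Vale.Agent.P275GC.At Vale.Agent.P275KI Vale.Agent.P275MO
open Vale.Agent.P275NA (Fm Cy Mn db dz fc)
open Vale.Agent.P275RR (Rc SV rc_of ex_O ex_not)

noncomputable section

namespace Vale.Agent.P275KC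

theorem surj_of_dual {P : Type} [AddCommGroup P] [Module ℂ P] {o : ℕ} (Λ : P →ₗ[ℂ] Cv o)
    (h : ∀ φ : Cv o →L[ℂ] ℂ, (∀ p, φ (Λ p) = 0) → φ = 0) : Function.Surjective Λ := by
  by_contra c
  obtain ⟨f, a, b⟩ := (LinearMap.range Λ).exists_le_ker_of_lt_top
    (lt_top_iff_ne_top.2 fun e => c (LinearMap.range_eq_top.1 e))
  exact a (congrArg ContinuousLinearMap.toLinearMap
    (h (LinearMap.toContinuousLinearMap f) fun p => b ⟨p, rfl⟩))

theorem der_line {E X Y M O : Type} [NormedAddCommGroup E] [NormedSpace ℂ E] [NormedAddCommGroup X]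
    [NormedSpace ℂ X] [NormedAddCommGroup Y] [NormedSpace ℂ Y] [NormedAddCommGroup M]
    [NormedSpace ℂ M] [NormedAddCommGroup O] [NormedSpace ℂ O] (ad : CL E (CL X Y)) (c : Y)
    (L : CL E Y) (D : CL M Y) (ob : CL Y O) (a : ℂ) (s : E) {β : ℂ → X} {Z : ℂ → M} {Z' : M}
    (hβ : DifferentiableAt ℂ β 0) (hZ : HasDerivAt Z Z' 0) :
    HasDerivAt (fun t => ob (ad (t • s) (β t) + (a • (c + L (t • s)) + D (Z t))))
      (ob (ad s (β 0) + (a • L s + D Z'))) 0 := by
  have h : HasDerivAt (fun t : ℂ => t • s) s 0 := by simpa using (hasDerivAt_id (0 : ℂ)).smul_const s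
  have p := (ad.hasFDerivAt.comp_hasDerivAt 0 h).clm_apply hβ.hasDerivAt
  have q := (((L.hasFDerivAt.comp_hasDerivAt 0 h).const_add c).const_smul a).add
    (D.hasFDerivAt.comp_hasDerivAt 0 hZ)
  simp only [Function.comp, zero_smul, map_zero, ContinuousLinearMap.zero_apply, add_zero] at p
  exact ob.hasFDerivAt.comp_hasDerivAt 0 (p.add q)

theorem norm_zero_lt {E X Y : Type} [NormedAddCommGroup E] [NormedSpace ℂ E] [NormedAddCommGroup X]
    [NormedSpace ℂ X] [NormedAddCommGroup Y] [NormedSpace ℂ Y] (S : CL Y X) (ad : CL E (CL X Y)) :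
    ‖S.comp (ad 0)‖ < 1 := by
  rw [ad.map_zero, ContinuousLinearMap.comp_zero, norm_zero]; exact one_pos

theorem der_rt {n : ℕ} {P σ : ℂ → Mn n} {P' σ0 R X : Mn n} (hP : HasDerivAt P P' 0)
    (hσ : HasDerivAt σ ((X - P') * σ0) 0) (p1 : P 0 = 1) (p2 : σ 0 = σ0) (h0 : σ0.det ≠ 0) :
    HasDerivAt (fun t => rt (P t) (σ t) R) (X * (σ0 * R * σ0⁻¹) - σ0 * R * σ0⁻¹ * X) 0 := by
  have d1 : (P 0).det ≠ 0 := by rw [p1, det_one]; exact one_ne_zero
  have d2 : (σ 0).det ≠ 0 := by rwa [p2]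
  have c : Continuous (det : Mn n → ℂ) := continuous_id.matrix_det
  have hZ : DifferentiableAt ℂ (fun t => rt (P t) (σ t) R) 0 :=
    (((hP.differentiableAt.mul hσ.differentiableAt).mul_const R).mul
      (df_minv hσ.differentiableAt d2)).mul (df_minv hP.differentiableAt d1)
  have hU := hP.mul hσ
  have e := (hZ.hasDerivAt.mul hU).unique ((hU.mul_const R).congr_of_eventuallyEq (by
    filter_upwards [(c.continuousAt.comp hP.continuousAt).eventually_ne d1,
      (c.continuousAt.comp hσ.continuousAt).eventually_ne d2] with t a b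
    show rt (P t) (σ t) R * (P t * σ t) = P t * σ t * R
    rw [rt, ← mul_assoc, nonsing_inv_mul_cancel_right _ _ a.isUnit,
      nonsing_inv_mul_cancel_right _ _ b.isUnit]))
  simp only [Pi.mul_apply, rt, p1, p2, one_mul, inv_one, mul_one, ← add_mul, add_sub_cancel] at e
  have e' := congrArg (· * σ0⁻¹) (eq_sub_of_add_eq e)
  simp only [sub_mul, ← mul_assoc, mul_nonsing_inv_cancel_right _ _ h0.isUnit] at e' ⊢
  exact e' ▸ hZ.hasDerivAt

variable {C : Type} [TopologicalSpace C] {A : At C} {n : ℕ} {l : Cy A ℂ} {i0 : Fin A.N} {ε : ℝ}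
  {τ : Ty n} {z : Dat C A.N n} {B : Vb A l z.g i0 (A.e i0 z.x) ε}

namespace Su

variable (S : Su B)

theorem base (hz : Good A l z) (hx : z.x ∈ (A.e i0).source) : yc A τ i0 S.th 0 z ∈ S.W τ :=
  ⟨B.zero, mem_ball_self (by linarith [S.pos]), hz.fr i0 hx, norm_zero_lt S.K.S S.ad⟩

theorem fm_cL (s : Cv B.k) (i : Fin A.N) {w : ℂ} (hw : w ∈ ball (0 : ℂ) A.R) :
    Sct.fm A (S.cL s) i w = cur A S.A0 (B.sf s) i w - cur A S.A0 (B.sf 0) i w := by
  rw [← S.hc s i w hw, ← S.hc 0 i w hw, S.cL.map_zero, add_zero, fm_add, add_sub_cancel_left]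

theorem fm_D0 (X : Mn n) (i : Fin A.N) {w : ℂ} (hw : w ∈ ball (0 : ℂ) A.R) :
    Sct.fm A (S.D0 X) i w = P275MO.dp A z.g i0 S.χ0 (A.e i0 z.x) X i w := by
  rw [← S.hD0, S.hD _ (mem_ball_self (by linarith [S.pos])) i w hw]

theorem der [T2Space C] (hz : Good A l z) (hR : z.R ∈ τ.q) (hx : z.x ∈ (A.e i0).source) (s : Cv B.k)
    (X : Mn n) : ∃ σ, fderiv ℂ (fun y => S.K.ob (S.f y)) (yc A τ i0 S.th 0 z) (s, 0, 0, σ, 0, 0) =
      S.K.ob (S.ad s (S.β (yc A τ i0 S.th 0 z)) + (z.lam • S.cL s +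
        S.D0 (X * (z.σ i0 * z.R * (z.σ i0)⁻¹) - z.σ i0 * z.R * (z.σ i0)⁻¹ * X))) := by
  have h := S.base (τ := τ) hz hx
  have hs : HasDerivAt (fun t : ℂ => t • s) s 0 := by
    simpa using (hasDerivAt_id (0 : ℂ)).smul_const s
  obtain ⟨P', hP⟩ : ∃ P', HasDerivAt (fun t : ℂ => B.F (t • s) i0 (A.e i0 z.x)) P' 0 := ⟨_,
    (df_F (B := B) hs.differentiableAt (by simpa using B.zero) (S.br h.2.1) i0).1.hasDerivAt⟩
  have hσ := ((hasDerivAt_id' (0 : ℂ)).smul_const ((X - P') * z.σ i0)).const_add (z.σ i0)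
  rw [one_smul] at hσ
  let γ : ℂ → Yp τ B.k S.K.k := fun t =>
    (t • s, z.lam, A.e i0 z.x, z.σ i0 + t • ((X - P') * z.σ i0), τ.pq z.R, S.th 0 z)
  have hγ : HasDerivAt γ (s, 0, 0, (X - P') * z.σ i0, 0, 0) 0 :=
    hs.prodMk ((hasDerivAt_const _ _).prodMk ((hasDerivAt_const _ _).prodMk
      (hσ.prodMk ((hasDerivAt_const _ _).prodMk (hasDerivAt_const _ _)))))
  have e : yc A τ i0 S.th 0 z = γ 0 := by simp only [γ, yc, zero_smul, add_zero]
  have hZ := der_rt (R := z.R) hP hσ (by rw [zero_smul]; exact B.F0 i0 _ (S.br h.2.1))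
    (by rw [zero_smul, add_zero]) (hz.fr i0 hx)
  have p := (S.K.ob.differentiableAt.comp _ (S.df_f h)).hasFDerivAt.comp_hasDerivAt_of_eq 0 hγ e
  have hβ := (S.df_β (e ▸ h)).comp 0 hγ.differentiableAt
  have q := der_line S.ad S.c0 S.cL S.D0 S.K.ob z.lam s hβ hZ
  refine ⟨_, (p.unique (q.congr_of_eventuallyEq (Eventually.of_forall fun t => ?_))).trans ?_⟩
  · simp only [Function.comp, f, N, Su.X, γ, S.hD0, τ.coe_pq hR]
  · rw [e]; rfl

theorem sur [T2Space C] (h2 : CP2 n A l) (h3 : SUR n A l) (hz : Good A l z) (hs : Stab A l z)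
    (hR : z.R ∈ τ.q) (hx : z.x ∈ (A.e i0).source) (v : Cv S.K.o) : ∃ s σ,
      fderiv ℂ (fun y => S.K.ob (S.f y)) (yc A τ i0 S.th 0 z) (s, 0, 0, σ, 0, 0) = v := by
  let J : Cv B.k × Mn n →ₗ[ℂ] Yp τ B.k S.K.k :=
    { toFun := fun p => (p.1, 0, 0, p.2, 0, 0)
      map_add' := fun p q => by simp
      map_smul' := fun c p => by simp }
  refine (surj_of_dual ((fderiv ℂ (fun y => S.K.ob (S.f y))
    (yc A τ i0 S.th 0 z)).toLinearMap.comp J) (fun φ hφ => ?_) v).elim fun p hp => ⟨p.1, p.2, hp⟩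
  obtain ⟨u, a1, a2, a3, a4⟩ := S.K.dual φ
  refine a4 (h3 z i0 ε B S.χ0 S.χ u hz hs hx S.pos S.lt S.cu a1 a2 fun s X => ?_)
  obtain ⟨σ, hσ⟩ := S.der hz hR hx s X
  have hb := (S.rcv h2 B.h1 le_rfl (P275MB.Good.res hz) hR hx (fun (i j : Fin A.N) w a => by
    rw [fc, B.F0 i w a.1, B.F0 j _ (res_O.1 a).2.2, inv_one, one_mul, mul_one]) (S.base hz hx)).2.2
  have c0 : ∀ i w, cur A S.A0 (B.sf 0) i w = db (S.A0 i) w := fun i w => by
    rw [map_zero]
    exact (by simp : db (S.A0 i) w + (0 * S.A0 i w - S.A0 i w * 0) - wd 1 (fun _ => 0) w =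
      db (S.A0 i) w)
  have := hφ (s, σ)
  rw [show ((fderiv ℂ (fun y => S.K.ob (S.f y)) (yc A τ i0 S.th 0 z)).toLinearMap.comp J) (s, σ) =
    _ from hσ, a3 _ fun i w a => tf_iff.2 ?_] at this
  · refine (int_congr fun i w a => congrArg (u i w) ?_).trans this
    have m := mem_of_le (A := A) a.le
    have m' : w ∈ ball (0 : ℂ) B.r := mem_ball_zero_iff.2 (a.trans B.h1)
    rw [fm_add, fm_add, fm_smul, S.had _ _ i w m, S.fm_cL _ i m, S.fm_D0 _ i m, c0, cur,
      ← add_assoc]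
    refine congrArg (· + _) ?_
    by_cases c : w ∈ A.O i i0 ∧ A.tr i i0 w ∈ ball (A.e i0 z.x) ε
    · simp [S.s0 s i w c.1 c.2]
    · have o : (A.e i).symm w ≠ z.x := fun e => c ⟨⟨m, by rwa [mem_preimage, e]⟩, by
        rw [At.tr, e]; exact mem_ball_self S.pos⟩
      have p0 : ∀ ξ Y, pp A z.g i0 S.χ0 ξ Y i w = 0 := fun ξ Y => by
        by_cases d : w ∈ A.O i i0
        · rw [pp, ex_O d, S.cu.z0 _ fun e => c ⟨d, closedBall_subset_ball
            (half_lt_self S.pos) e⟩, zero_div, zero_smul, map_zero]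
        · exact ex_not d
      have k := hb i w ⟨m', o⟩
      rw [b, bt, p0, add_zero, bk, B.F0 i w m', show dz (B.F 0 i) w = 0 from (wd_congr
        (eventually_of_mem (isOpen_ball.mem_nhds m') (B.F0 i)) 1).trans (wd_const _ _ _),
        smul_zero, sub_zero, inv_one, one_mul, mul_one] at k
      rw [← k, show (yc A τ i0 S.th 0 z).2.1 = z.lam from rfl]
      simp only [mul_add, add_mul, mul_smul_comm, smul_mul_assoc, smul_sub, smul_add]
      abel
  · have m := mem_of_le (A := A) a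
    rw [fm_add, fm_add, fm_smul, S.had _ _ i w m, S.fm_cL _ i m, S.fm_D0 _ i m, trace_add,
      trace_add, trace_sub, trace_mul_comm, sub_self, trace_smul, trace_sub, S.trc _ i w m,
      S.trc _ i w m, S.trd _ _ (by rw [trace_sub, trace_mul_comm, sub_self]), sub_self, smul_zero,
      add_zero, add_zero]

end Su

/-- **CN** -/
theorem cn' [T2Space C] [PreconnectedSpace C] (hD : DOL A) (h0 : CP0 n A) (h1 : CP1 n A l)
    (h2 : CP2 n A l) (h3 : SUR n A l) : CN n A l := fun τ z i0 ε B hz hs hR hx hε lt =>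
  (ex_su hD h0 B hz.cc hε lt).elim fun S => ⟨
    { k := S.K.k
      o := S.K.o
      δ := ε / 4
      F := S.F
      ob := fun y => S.K.ob (S.f y)
      th := S.th
      W := S.W τ
      op := S.op
      base := S.base hz hx
      hob := fun y h => (S.K.ob.differentiableAt.comp y (S.df_f h)).differentiableWithinAt
      sW := fun y h => ⟨h.1, h.2.1, S.b1 (S.b4 h.2.1)⟩
      lam := fun _ => rfl
      x := fun _ => rfl
      g := fun _ => rfl
      σ := fun _ h => S.F_σ h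
      R := fun _ => rfl
      fam := fun _ _ _ _ _ _ hV hι h => S.fam h1 hV hι h
      ha := fun i w h => S.df_a (S.base hz hx) i ⟨h.1, fun e => h.2
        (e.trans ((A.e i0).left_inv hx))⟩
      rcv := fun _ _ a b _ c d e f h =>
        ⟨(S.rcv h2 a b c d e f h).1, (S.rcv h2 a b c d e f h).2.1⟩
      con := fun _ h _ => S.con h1 h
      loc := fun s _ a b _ _ c d e => S.loc s a b c d e
      thc := fun _ _ _ _ _ _ _ b c d e => S.thc b h2 c d e
      thh := fun _ _ _ _ _ _ _ _ _ b c d e f => S.thh h2 b c d e f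
      sur := S.sur h2 h3 hz hs hR hx }⟩

theorem cn {d : ℤ} (hS : Std A l n d) (hD : DOL A) (h0 : CP0 n A) (h1 : CP1 n A l)
    (h2 : CP2 n A l) (h3 : SUR n A l) : CN n A l :=
  have := hS.t2
  have := hS.conn
  cn' hD h0 h1 h2 h3

end Vale.Agent.P275KC
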