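import Vale.Agent.P275KC.Ban
import Vale.Agent.P275KI.Sct
import Vale.Agent.P275MO.CDefs
import Vale.Agent.P275GC.St

/-!
P275 (helper23): the operators of the block CN.
-/

set_option linter.all false

open scoped Topology ContDiff ComplexConjugate
open Filter Set Metric
open Vale.Agent.P275GC Vale.Agent.P275GC.At Vale.Agent.P275KI Vale.Agent.P275MO
open Vale.Agent.P275NA (Fm Cy)
open Vale.Agent.P275RR (Rc SV rc_of)

noncomputable section

namespace Vale.Agent.P275KC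

variable {C : Type} [TopologicalSpace C] {A : At C} {V : Type} [NormedAddCommGroup V]
  [NormedSpace ℝ V] [NormedSpace ℂ V] [IsScalarTower ℝ ℂ V] {G : Cy A (V →L[ℂ] V)}

theorem mk_congr {s s' : Fm A V} (h : ∀ i z, ‖z‖ ≤ 1 → s i z = s' i z) : mk G s = mk G s' := by
  have k : ∀ {s s' : Fm A V}, (∀ i z, ‖z‖ ≤ 1 → s i z = s' i z) → US A G s → US A G s' :=
    fun h a => ⟨fun i => (a.1 i).congr fun z b => (h i z (mem_closedBall_zero_iff.1 b)).symm,
      fun i j z b c d => by rw [← h i z c, ← h j _ d, a.2 i j z b c d]⟩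
  by_cases a : US A G s
  · rw [P275KI.mk, P275KI.mk, dif_pos a, dif_pos (k h a)]
    exact Subtype.ext (funext fun i => ContinuousMap.ext fun w =>
      h i w (mem_closedBall_zero_iff.1 w.2))
  · rw [P275KI.mk, P275KI.mk, dif_neg a, dif_neg fun b => a (k (fun i z c => (h i z c).symm) b)]

/-- linear families of sections -/
theorem ex_mkL {E : Type} [NormedAddCommGroup E] [NormedSpace ℂ E] [FiniteDimensional ℂ E]
    (hG : Rc A G) {f : E → Fm A V} (h : ∀ s, US A G (f s))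
    (h1 : ∀ s t i z, ‖z‖ ≤ 1 → f (s + t) i z = f s i z + f t i z)
    (h2 : ∀ (c : ℂ) s i z, ‖z‖ ≤ 1 → f (c • s) i z = c • f s i z) :
    ∃ L : E →L[ℂ] Sct A G, ∀ s, L s = mk G (f s) :=
  ⟨LinearMap.toContinuousLinearMap
    { toFun := fun s => mk G (f s)
      map_add' := fun s t => sct_ext hG fun i z a => by
        rw [fm_add, fm_mk hG (h _) a, fm_mk hG (h _) a, fm_mk hG (h _) a, h1 s t i z a]
      map_smul' := fun c s => sct_ext hG fun i z a => by
        rw [fm_smul, fm_mk hG (h _) a, fm_mk hG (h _) a, h2 c s i z a, RingHom.id_apply] },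
    fun _ => rfl⟩

/-- the values are fixed by `t` -/
def TF (t : V →L[ℂ] V) (u : Sct A G) : Prop :=
  ∀ i z, ‖z‖ ≤ 1 → t (Sct.fm A u i z) = Sct.fm A u i z

variable (G) in
/-- the operators -/
structure Op (t : V →L[ℂ] V) (c : Fm A ℂ) where
  k : ℕ
  o : ℕ
  e : Cv k →L[ℂ] Sct A G
  L : Sct A G →L[ℂ] Cv k
  S : Sct A (bar A G) →L[ℂ] Sct A G
  ob : Sct A (bar A G) →L[ℂ] Cv o
  tr : ∀ θ f i, ∀ w ∈ ball (0 : ℂ) A.R, t (Sct.fm A (e θ - S f) i w) = Sct.fm A (e θ - S f) i w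
  sol : ∀ θ f, TF t f → ob f = 0 → WD A (Sct.fm A (e θ - S f)) fun i w => -Sct.fm A f i w
  crd : ∀ θ f, L (mk G fun i w => c i w • Sct.fm A (e θ - S f) i w) = θ
  uni : ∀ u f, TF t u → TF t f →
    (∀ i w, ‖w‖ < 1 → WA (Sct.fm A u i) (fun y => -Sct.fm A f i y) w) →
    ob f = 0 ∧ u = e (L (mk G fun i w => c i w • Sct.fm A u i w)) - S f
  dual : ∀ φ : Cv o →L[ℂ] ℂ, ∃ u : Fm A (V →L[ℂ] ℂ), A.Hl u ∧
    (∀ i j, ∀ w ∈ A.O i j, (u i w).comp (G i j w) = A.d i j w • u j (A.tr i j w)) ∧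
    (∀ f, TF t f → φ (ob f) = A.int fun i w => u i w (Sct.fm A f i w)) ∧
    ((∀ i, ∀ w ∈ ball (0 : ℂ) A.R, ∀ Y, u i w (t Y) = 0) → φ = 0)

theorem ex_op [FiniteDimensional ℂ V] [T2Space C] [PreconnectedSpace C] (hD : DOL A) (hG : A.Cc G)
    (t : V →L[ℂ] V) (tt : ∀ x, t (t x) = t x)
    (ht : ∀ i j, ∀ z ∈ A.O i j, ∀ x, t (G i j z x) = G i j z (t x)) {c : Fm A ℂ} (c1 : A.Ct c)
    (c2 : A.Fn c) {i0 : Fin A.N} {w0 : ℂ} (hw : w0 ∈ ball (0 : ℂ) 1)
    (c3 : ∀ᶠ y in 𝓝 w0, c i0 y = 1) : Nonempty (Op G t c) := by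
  haveI : CompleteSpace V := FiniteDimensional.complete ℂ V
  obtain ⟨⟨K⟩, hdu⟩ := hD V G hG
  have rG := rc_of hG
  have rB := rc_bar rG
  have hb : ∀ i j, ∀ z ∈ A.O i j, ∀ x, t (bar A G i j z x) = bar A G i j z (t x) :=
    fun i j z a x => by rw [bar_apply, bar_apply, map_smul, ht i j z a]
  let T : Sct A G →L[ℂ] Sct A G := lin t ht
  let T' : Sct A (bar A G) →L[ℂ] Sct A (bar A G) := lin t hb
  have fT : ∀ u, TF t u → T u = u := fun u h => sct_ext rG fun i z a =>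
    (fm_lin t ht u (mem_of_le a)).trans (h i z a)
  have fT' : ∀ u, TF t u → T' u = u := fun u h => sct_ext rB fun i z a =>
    (fm_lin t hb u (mem_of_le a)).trans (h i z a)
  have TT : ∀ u, T (T u) = T u := fun u => fT _ fun i z a => by
    rw [fm_lin t ht u (mem_of_le a), tt]
  let G1 : Cy A (ℂ →L[ℂ] ℂ) := fun _ _ _ => 1
  have r1 : Rc A G1 := rc_of A.cc_one
  have hM : ∀ i j, ∀ z ∈ A.O i j, ∀ x y, ContinuousLinearMap.lsmul ℂ ℂ (G1 i j z x) (G i j z y) =
      G i j z (ContinuousLinearMap.lsmul ℂ ℂ x y) := fun i j z _ x y => (map_smul _ _ _).symm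
  let M : Sct A G →L[ℂ] Sct A G := bil (ContinuousLinearMap.lsmul ℂ ℂ) hM (mk G1 c)
  have fM : ∀ u i, ∀ z ∈ ball (0 : ℂ) A.R, Sct.fm A (M u) i z = c i z • Sct.fm A u i z :=
    fun u i z a => by
      rw [fm_bil _ hM _ u a, fm_mk_of r1 c1 (fun i j z b => c2 i j z b) a]; rfl
  have mM : ∀ u, mk G (fun i w => c i w • Sct.fm A u i w) = M u := fun u => by
    rw [← mk_fm rG (M u)]
    exact mk_congr fun i z a => (fM u i z (mem_of_le a)).symm
  let Θ : Submodule ℂ (Sct A G) :=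
    LinearMap.range K.p.toLinearMap ⊓ LinearMap.ker (T - 1 : Sct A G →L[ℂ] Sct A G).toLinearMap
  haveI := K.finp
  haveI : FiniteDimensional ℂ Θ := Submodule.finiteDimensional_of_le inf_le_left
  obtain ⟨k, e, e1, e2⟩ := ex_coord Θ
  have he : ∀ θ, A.Hl (Sct.fm A (e θ)) ∧ T (e θ) = e θ := fun θ => by
    obtain ⟨⟨v, a⟩, b⟩ := (e2 _).2 ⟨θ, rfl⟩
    exact ⟨(show K.p v = e θ from a) ▸ K.holp v, sub_eq_zero.1 b⟩
  have he' : ∀ u, A.Hl (Sct.fm A u) → ∃ θ, e θ = T u := fun u h => by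
    refine (e2 _).1 ⟨⟨T u, ?_⟩, sub_eq_zero.2 (TT u)⟩
    have := (slv_uni hG K (u := T u) (v := 0) fun i z a => ((wd_hl h i z (mem_of_le a.le)).clm t).congr
      (eventually_of_mem (isOpen_ball.mem_nhds (mem_of_le a.le)) fun w b => fm_lin t ht u b)
      (Eventually.of_forall fun w => by simp only [fm_zero, map_zero])).2
    rw [map_zero, zero_add] at this
    exact this.symm
  obtain ⟨L, hL⟩ := ex_left (M.comp e) ((injective_iff_map_eq_zero _).2 fun θ h => by
    refine e1 (sct_ext rG fun i z a => ?_)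
    have b := A.unit_sub (ball_subset_closedBall hw)
    rw [map_zero, fm_zero]
    refine Hl.eq_zero (T := fun i j z y => G i j z y) (he θ).1 (fm_sv rG _)
      (fun _ _ _ => map_zero _) (i := i0) b (Eventually.frequently (nhdsWithin_le_nhds ?_)) i
      (mem_of_le a)
    filter_upwards [c3, isOpen_ball.mem_nhds b] with y p q
    have := fM (e θ) i0 y q
    rwa [show M (e θ) = 0 from h, fm_zero, p, one_smul, eq_comm] at this)
  replace hL : ∀ θ, L (M (e θ)) = θ := hL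
  haveI := K.finπ
  haveI : FiniteDimensional ℂ (LinearMap.range (K.π.comp T').toLinearMap) :=
    Submodule.finiteDimensional_of_le (S₂ := LinearMap.range K.π.toLinearMap)
      fun _ ⟨v, a⟩ => ⟨T' v, a⟩
  obtain ⟨o, e', e1', e2'⟩ := ex_coord (LinearMap.range (K.π.comp T').toLinearMap)
  obtain ⟨L', hL'⟩ := ex_left e' e1'
  let S : Sct A (bar A G) →L[ℂ] Sct A G := (1 - e.comp (L.comp M)).comp (T.comp K.S)
  have hS : ∀ θ f, e θ - S f = e (θ + L (M (T (K.S f)))) - T (K.S f) := fun θ f => by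
    show e θ - (T (K.S f) - e (L (M (T (K.S f))))) = _
    rw [map_add]; abel
  refine ⟨⟨k, o, e, L, S, L'.comp (K.π.comp T'), fun θ f i w a => ?_, fun θ f a b => ?_,
    fun θ f => ?_, fun u f a b h => ?_, fun φ => ?_⟩⟩
  · rw [← fm_lin t ht _ a, hS]
    exact congrArg (Sct.fm A · i w) (show T _ = _ by rw [map_sub, (he _).2, TT])
  · obtain ⟨v, hv⟩ := (e2' _).1 ⟨f, rfl⟩
    have h0 : K.π f = 0 := by
      have : v = 0 := by rw [← hL' v, hv]; exact b
      rw [← fT' f a]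
      exact hv.symm.trans (by rw [this, map_zero])
    intro i z hz
    have p := slv_wd hG K f i z hz
    rw [h0, sub_zero] at p
    refine ((wd_hl (he (θ + L (M (T (K.S f))))).1 i z hz).sub (p.clm t)).congr
      (eventually_of_mem (isOpen_ball.mem_nhds hz) fun w q => ?_)
      (eventually_of_mem (isOpen_ball.mem_nhds hz) fun w q => ?_)
    · simp only [hS, fm_sub, T, fm_lin t ht _ q]
    · simp only [zero_sub, ← fm_lin t hb f q]
      rw [show lin t hb f = f from fT' f a]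
  · rw [mM, hS, map_sub, map_sub, hL, add_sub_cancel_right]
  · obtain ⟨p, q⟩ := slv_uni hG K (u := u) (v := -f) fun i z hz => (h i z hz).congr
      EventuallyEq.rfl (Eventually.of_forall fun w => fm_neg f)
    obtain ⟨θ, hθ⟩ := he' _ (K.holp u)
    have r : u = e θ - T (K.S f) := by
      rw [hθ, ← fT u a]
      nth_rewrite 1 [q]
      rw [map_add, map_neg, map_neg, fT u a]; abel
    refine ⟨?_, ?_⟩
    · show L' (K.π (T' f)) = 0
      rw [fT' f b, neg_eq_zero.1 ((map_neg K.π f).symm.trans p), map_zero]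
    · rw [mM, hS]
      nth_rewrite 2 [r]
      rw [map_sub, map_sub, hL, sub_add_cancel]
      exact r
  · obtain ⟨u, a, b, h⟩ := hdu K (φ.comp (L'.comp K.π)) fun f =>
      congrArg (fun x => φ (L' x)) (K.ππ f).symm
    refine ⟨u, a, b, fun f p => ?_, fun p => ContinuousLinearMap.ext fun v => ?_⟩
    · rw [← h f]
      exact congrArg (fun x => φ (L' (K.π x))) (fT' f p)
    · obtain ⟨f, hf⟩ := (e2' _).2 ⟨v, rfl⟩
      have q := h (T' f)
      rw [int_congr' (v := fun _ _ => 0) fun i w r => by rw [fm_lin t hb f r, p i w r]] at q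
      rw [← hL' v, ← hf]
      simpa [At.int] using q

end Vale.Agent.P275KC
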