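import Vale.Agent.P272.GEO.Osgood

/-!
P275 (helper23): Osgood's lemma on finite dimensional spaces and products.
-/

set_option linter.all false

open scoped Topology
open Filter Set

namespace Vale.Agent.P275KC

variable {E E' F : Type} [NormedAddCommGroup E] [NormedSpace ℂ E] [FiniteDimensional ℂ E]
  [NormedAddCommGroup E'] [NormedSpace ℂ E'] [FiniteDimensional ℂ E']
  [NormedAddCommGroup F] [NormedSpace ℂ F] [CompleteSpace F]

/-- a continuous function which is holomorphic along the lines of a basis is holomorphic -/
theorem osg_basis {ι : Type} [Fintype ι] (b : Module.Basis ι ℂ E) {D : Set E} (hD : IsOpen D)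
    {f : E → F} (hc : ContinuousOn f D)
    (h : ∀ x ∈ D, ∀ i, DifferentiableAt ℂ (fun τ : ℂ => f (x + τ • b i)) 0) :
    DifferentiableOn ℂ f D := by
  let c := b.reindex (Fintype.equivFin ι)
  let e := c.equivFunL
  have h1 : DifferentiableOn ℂ (fun v => f (e.symm v)) (e.symm ⁻¹' D) := by
    refine P272.GEO.osgood (hD.preimage e.symm.continuous)
      (hc.comp e.symm.continuous.continuousOn fun _ a => a) fun x hx i => ?_
    have h2 : DifferentiableAt ℂ (fun τ : ℂ => f (e.symm x + τ • c i)) (x i - x i) := by
      simpa [c] using h _ hx _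
    have h3 := h2.comp (f := fun τ : ℂ => τ - x i) (x i) (differentiableAt_id.sub_const _)
    refine h3.congr_of_eventuallyEq (Eventually.of_forall fun τ => congrArg f ?_)
    apply e.injective
    rw [map_add, e.apply_symm_apply, e.apply_symm_apply]
    ext j
    by_cases hj : j = i
    · subst hj
      simp [e]
    · simp [e, hj, Finsupp.single_apply, Ne.symm hj]
  have h2 := h1.comp (s := D) e.differentiable.differentiableOn fun x hx => by simpa using hx
  exact h2.congr fun x _ => by simp

/-- a continuous function which is holomorphic along all lines is holomorphic -/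
theorem osg_line {D : Set E} (hD : IsOpen D) {f : E → F} (hc : ContinuousOn f D)
    (h : ∀ x ∈ D, ∀ v, DifferentiableAt ℂ (fun τ : ℂ => f (x + τ • v)) 0) :
    DifferentiableOn ℂ f D := osg_basis (Module.finBasis ℂ E) hD hc fun x hx _ => h x hx _

theorem df_line {f : E → F} {x : E} (h : DifferentiableAt ℂ f x) (v : E) :
    DifferentiableAt ℂ (fun τ : ℂ => f (x + τ • v)) 0 := by
  have h' : DifferentiableAt ℂ f (x + (0 : ℂ) • v) := by simpa using h
  exact h'.comp (f := fun τ : ℂ => x + τ • v) 0 ((differentiableAt_id.smul_const v).const_add x)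

/-- a continuous, separately holomorphic function is holomorphic -/
theorem osg {D : Set (E × E')} (hD : IsOpen D) {f : E × E' → F} (hc : ContinuousOn f D)
    (h1 : ∀ p ∈ D, DifferentiableAt ℂ (fun t => f (t, p.2)) p.1)
    (h2 : ∀ p ∈ D, DifferentiableAt ℂ (fun w => f (p.1, w)) p.2) : DifferentiableOn ℂ f D := by
  refine osg_basis ((Module.finBasis ℂ E).prod (Module.finBasis ℂ E')) hD hc fun p hp i => ?_
  rcases i with i | i
  · refine (df_line (h1 p hp) (Module.finBasis ℂ E i)).congr_of_eventuallyEq
      (Eventually.of_forall fun τ => congrArg f ?_)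
    ext <;> simp
  · refine (df_line (h2 p hp) (Module.finBasis ℂ E' i)).congr_of_eventuallyEq
      (Eventually.of_forall fun τ => congrArg f ?_)
    ext <;> simp

end Vale.Agent.P275KC
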