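import Vale.Agent.P275KC.Ops
import Vale.Agent.P275MO.CLoc
import Vale.Agent.P275MB.Res

/-!
P275 (helper23): the data of the block CN.
-/

set_option linter.all false

open scoped Topology Matrix.Norms.Operator ContDiff ComplexConjugate
open Filter Set Metric Matrix
open Vale.Agent.P281Z.Hm (wd wd_add wd_const_smul wd_const)
open Vale.Agent.P275GC Vale.Agent.P275GC.At Vale.Agent.P275KI Vale.Agent.P275MO
open Vale.Agent.P275NA (Fm Cy Mn db dz fc)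
open Vale.Agent.P275RR (Rc SV rc_of ex ex_O ex_not)

noncomputable section

namespace Vale.Agent.P275KC

variable {C : Type} [TopologicalSpace C] {A : At C} {n : ℕ} {l : Cy A ℂ} {g : Cy A (Mn n)}
  {i0 : Fin A.N} {ξ0 : ℂ} {ε : ℝ}

/-- the trace free part as an operator -/
def tfL (n : ℕ) : CL (Mn n) (Mn n) :=
  LinearMap.toContinuousLinearMap { toFun := tf, map_add' := tf_add, map_smul' := tf_smul }

theorem tfL_apply (X : Mn n) : tfL n X = tf X := rfl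

theorem tf_iff {X : Mn n} : tfL n X = X ↔ X.trace = 0 :=
  ⟨fun h => h ▸ tr_tf X, tf_of⟩

/-- the commutator -/
def brL (n : ℕ) : CL (Mn n) (CL (Mn n) (Mn n)) :=
  ContinuousLinearMap.mul ℂ (Mn n) - (ContinuousLinearMap.mul ℂ (Mn n)).flip

theorem brL_apply (X Y : Mn n) : brL n X Y = X * Y - Y * X := rfl

theorem adK_apply (i j : Fin A.N) (w : ℂ) (X : Mn n) :
    adK A g i j w X = A.d i j w • (g i j w * X * g j i (A.tr i j w)) := rfl

theorem adC_apply (i j : Fin A.N) (w : ℂ) (X : Mn n) :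
    adC A g i j w X = g i j w * X * g j i (A.tr i j w) := rfl

theorem tf_adK (hg : A.Cc g) (i j : Fin A.N) (z : ℂ) (h : z ∈ A.O i j) (X : Mn n) :
    tfL n (adK A g i j z X) = adK A g i j z (tfL n X) := by
  rw [tfL_apply, tfL_apply, adK_apply, adK_apply, tf_smul, tf, tf, tr_cj (hg.inv' h), mul_sub,
    sub_mul, mul_smul_comm, smul_mul_assoc, mul_one, hg.inv h]

theorem br_adK (hg : A.Cc g) (i j : Fin A.N) (z : ℂ) (h : z ∈ A.O i j) (X Y : Mn n) :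
    brL n (bar A (adC A g) i j z X) (adK A g i j z Y) = bar A (adK A g) i j z (brL n X Y) := by
  have e : ∀ Z : Mn n, g j i (A.tr i j z) * (g i j z * Z) = Z := fun Z => by
    rw [← mul_assoc, hg.inv' h, one_mul]
  simp only [brL_apply, bar_apply, adK_apply, adC_apply, mul_sub, sub_mul, smul_sub, mul_smul_comm,
    smul_mul_assoc, mul_assoc, e, smul_comm (A.d i j z) (conj (A.d i j z))]

/-- the data -/
structure Su (B : Vb A l g i0 ξ0 ε) where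
  χ0 : ℂ → ℂ
  χ : ℂ → ℂ
  A0 : Fm A (Mn n)
  cu : Cu ξ0 ε χ0 χ
  ref : Ref A g A0
  cc : A.Cc g
  ccK : A.Cc (adK A g)
  pos : 0 < ε
  lt : ‖ξ0‖ + ε < 1
  K : Op (adK A g) (tfL n) (cf A i0 χ)
  ad : CL (Cv B.k) (CL (Sct A (adK A g)) (Sct A (bar A (adK A g))))
  had : ∀ s u i, ∀ w ∈ ball (0 : ℂ) A.R,
    Sct.fm A (ad s u) i w = B.sf s i w * Sct.fm A u i w - Sct.fm A u i w * B.sf s i w
  c0 : Sct A (bar A (adK A g))
  cL : CL (Cv B.k) (Sct A (bar A (adK A g)))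
  hc : ∀ s i, ∀ w ∈ ball (0 : ℂ) A.R, Sct.fm A (c0 + cL s) i w = cur A A0 (B.sf s) i w
  trc : ∀ s i, ∀ w ∈ ball (0 : ℂ) A.R, (cur A A0 (B.sf s) i w).trace = 0
  D : ℂ × Mn n → Sct A (bar A (adK A g))
  hD : ∀ p : ℂ × Mn n, p.1 ∈ ball ξ0 (ε / 4) → ∀ i, ∀ w ∈ ball (0 : ℂ) A.R,
    Sct.fm A (D p) i w = dp A g i0 χ0 p.1 p.2 i w
  dD : DifferentiableOn ℂ D {p | p.1 ∈ ball ξ0 (ε / 4)}
  D0 : CL (Mn n) (Sct A (bar A (adK A g)))
  hD0 : ∀ X, D (ξ0, X) = D0 X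
  trd : ∀ ξ (X : Mn n), X.trace = 0 → ∀ i w, (dp A g i0 χ0 ξ X i w).trace = 0
  c1 : A.Ct (cf A i0 χ)
  c2 : A.Fn (cf A i0 χ)
  c3 : ∀ i ξ X, ∀ w ∈ ball (0 : ℂ) A.R, cf A i0 χ i w • pp A g i0 χ0 ξ X i w = 0
  c4 : ∀ i, ∀ w ∈ A.O i i0, A.tr i i0 w ∈ ball ξ0 (ε / 2) → cf A i0 χ i w = 0
  cp : ∀ i, ContinuousOn (fun p : (ℂ × Mn n) × ℂ => pp A g i0 χ0 p.1.1 p.1.2 i p.2)
    {p | p.1.1 ∈ ball ξ0 (ε / 4) ∧ p.2 ∈ off A ((A.e i0).symm p.1.1) i}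
  dp : ∀ i (p : ℂ × Mn n), p.1 ∈ ball ξ0 (ε / 4) → ∀ w ∈ off A ((A.e i0).symm p.1) i,
    DifferentiableAt ℂ (fun q : ℂ × Mn n => pp A g i0 χ0 q.1 q.2 i w) p
  s0 : ∀ s i, ∀ w ∈ A.O i i0, A.tr i i0 w ∈ ball ξ0 ε → B.sf s i w = 0

theorem ex_su [T2Space C] [PreconnectedSpace C] (hD : DOL A) (h0 : CP0 n A)
    (B : Vb A l g i0 ξ0 ε) (hg : A.Cc g) (hε : 0 < ε) (h1 : ‖ξ0‖ + ε < 1) : Nonempty (Su B) := by
  obtain ⟨a1, a2, a3, ⟨χ0, χ, a4⟩, ⟨A0, a5⟩, a6, a7⟩ := h0 g i0 ξ0 ε hg hε h1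
  obtain ⟨b1, b2, b3, b4, ⟨w0, b5, b6⟩, b7, b8, b9, b10, b11⟩ := a7 χ0 χ a4
  obtain ⟨K⟩ := ex_op hD a2 (tfL n) (fun X => tf_of (tr_tf X)) (tf_adK hg) b1.ct b2 b5 b6
  have r1 := rc_bar (rc_of a1)
  have r2 := rc_bar (rc_of a2)
  have v1 : ∀ s, SV A (bar A (adC A g)) (B.sf s) := fun s => (a3 _ _).1 (B.law s)
  obtain ⟨sL, hs⟩ := ex_mkL r1 (f := B.sf) (fun s => us_of (B.sm s).ct (v1 s))
    (fun s t i z _ => by rw [map_add]; rfl) fun c s i z _ => by rw [map_smul]; rfl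
  have v2 := fun s => a6 A0 (B.sf s) a5 (B.sm s) (B.law s) (B.tr s)
  have d : ∀ s i z, ‖z‖ ≤ 1 → DifferentiableAt ℝ (B.sf s i) z := fun s i z a =>
    ((B.sm s).at (mem_of_le a) i).differentiableAt (by simp)
  have v3 : ∀ s, A.Ct (fun i w => cur A A0 (B.sf s) i w - cur A A0 (B.sf 0) i w) ∧
      SV A (bar A (adK A g)) fun i w => cur A A0 (B.sf s) i w - cur A A0 (B.sf 0) i w := fun s =>
    ⟨fun i => ((v2 s).1.ct i).sub ((v2 0).1.ct i), fun i j z a => by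
      rw [map_sub, ← (v2 s).2.1 i j z a, ← (v2 0).2.1 i j z a]⟩
  have z0 : ∀ i z, cur A A0 (B.sf 0) i z = db (A0 i) z := fun i z => by
    rw [map_zero]
    exact (by simp : db (A0 i) z + (0 * A0 i z - A0 i z * 0) - wd 1 (fun _ => 0) z = db (A0 i) z)
  obtain ⟨cL, hc⟩ := ex_mkL r2 (fun s => us_of (v3 s).1 (v3 s).2)
    (fun s t i z a => by
      have := wd_add (d s i z a) (d t i z a) 1
      simp only [z0]
      rw [map_add, cur, cur, cur, show dz ((B.sf s + B.sf t) i) z = _ from this]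
      simp only [Pi.add_apply, add_mul, mul_add]
      abel)
    fun c s i z a => by
      have := wd_const_smul c (d s i z a) 1
      simp only [z0]
      rw [map_smul, cur, cur, show dz ((c • B.sf s) i) z = _ from this]
      simp only [Pi.smul_apply, smul_mul_assoc, mul_smul_comm, smul_sub, smul_add]
      abel
  have v4 : ∀ p : ℂ × Mn n, p.1 ∈ ball ξ0 (ε / 4) → A.Ct (dp A g i0 χ0 p.1 p.2) := fun p a i =>
    (b8 i).comp (f := fun w => (p, w)) (by fun_prop) fun _ b => ⟨a, b⟩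
  have v5 := fun X => us_of (v4 (ξ0, X) (mem_ball_self (by positivity))) (b7 ξ0 X).2.1
  obtain ⟨D0, hD0⟩ := ex_mkL r2 (f := dp A g i0 χ0 ξ0) v5
    (fun X Y i z _ => by simp only [P275MO.dp, smul_add, P275RR.ex_add, Pi.add_apply])
    fun c X i z _ => by
      simp only [P275MO.dp, smul_comm _ c, P275RR.ex_smul, Pi.smul_apply]
  refine ⟨⟨χ0, χ, A0, a4, a5, hg, a2, hε, h1, K, (bil (brL n) (br_adK hg)).comp sL,
    fun s u i w a => ?_, P275KI.mk _ (cur A A0 (B.sf 0)), cL, fun s i w a => ?_,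
    fun s => (v2 s).2.2, fun p => P275KI.mk _ (dp A g i0 χ0 p.1 p.2),
    fun p a i w b => fm_mk_of r2 (v4 p a) (b7 _ _).2.1 b,
    df_mk r2 (isOpen_ball.preimage continuous_fst) (fun p a => us_of (v4 p a) (b7 _ _).2.1)
      (fun i => (b8 i).mono fun p a => ⟨a.1, A.unit_sub a.2⟩)
      fun i z _ p a => (b10 i z p a).differentiableWithinAt, D0, fun X => (hD0 X).symm,
    fun ξ X a i w => ((b7 ξ X).2.2 a i w).2, b1.ct, b2, b3, b4, b9, b11, fun s i w a b => ?_⟩⟩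
  · refine (fm_bil (brL n) (br_adK hg) (sL s) u a).trans ?_
    rw [hs, fm_mk_of r1 (B.sm s).ct (v1 s) a, brL_apply]
  · rw [fm_add, hc, fm_mk_of r2 (v2 0).1.ct (v2 0).2.1 a, fm_mk_of r2 (v3 s).1 (v3 s).2 a,
      add_sub_cancel]
  · rw [v1 s i i0 w a, B.van s _ b, map_zero]

end Vale.Agent.P275KC
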